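import Vale.Agent.Lib.P194.FiniteFields

namespace Vale.Agent.Results.P194.FreeBySofic

/-- Let `K` be any field, `G` a group and `N` a normal subgroup of `G` that is a free group, such
that `G / N` is sofic in the sense of Elek and Szabó: for every finite `F ⊆ G / N` and every
`ε > 0` there are `m ≥ 1` and a map `σ : G / N → Sym(m)` such that `σ (g h)` and `σ g ∘ σ h`
differ on at most `ε m` points for `g, h ∈ F`, and `σ g` has at most `ε m` fixed points for every
`g ∈ F`, `g ≠ 1`.  Then `K[G]` is directly finite, and all matrix rings `M_n(K[G])` are directly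
finite, i.e. `K[G]` is stably finite.

So Kaplansky's direct finiteness conjecture holds, over every field and in its stably finite
form, for all free-by-sofic groups.  Nothing is assumed about any group algebra: the theorem of
Elek and Szabó for the sofic quotient, the fact that free groups are residually finite
`p`-groups, and the reduction from arbitrary fields to finite fields are proved in the imported
files. -/
theorem result (K : Type*) [Field K]
    (G : Type*) [Group G] (N : Subgroup G) [N.Normal] [IsFreeGroup N]
    (hsofic : ∀ (F : Finset (G ⧸ N)) (ε : ℝ), 0 < ε →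
      ∃ (m : ℕ) (σ : G ⧸ N → Equiv.Perm (Fin m)), 0 < m ∧
      (∀ g ∈ F, ∀ h ∈ F,
        ((Finset.univ.filter fun x => σ (g * h) x ≠ σ g (σ h x)).card : ℝ) ≤ ε * m) ∧
      (∀ g ∈ F, g ≠ 1 → ((Finset.univ.filter fun x => σ g x = x).card : ℝ) ≤ ε * m)) :
    (∀ a b : MonoidAlgebra K G, a * b = 1 → b * a = 1) ∧
    ∀ n : ℕ, ∀ A B : Matrix (Fin n) (Fin n) (MonoidAlgebra K G), A * B = 1 → B * A = 1 := by
  have hSF : ∀ n : ℕ, ∀ A B : Matrix (Fin n) (Fin n) (MonoidAlgebra K G),
      A * B = 1 → B * A = 1 := fun n A B hAB =>
    Vale.Agent.Lib.P194.matrix_mul_eq_one_symm_of_free_by_sofic_field N hsofic n A B hAB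
  refine ⟨fun a b hab => ?_, hSF⟩
  have h1 : Matrix.diagonal (fun _ : Fin 1 => a) * Matrix.diagonal (fun _ : Fin 1 => b) = 1 := by
    rw [Matrix.diagonal_mul_diagonal, hab, Matrix.diagonal_one]
  have h2 := hSF 1 _ _ h1
  rw [Matrix.diagonal_mul_diagonal] at h2
  have h3 := congrFun (congrFun h2 0) 0
  simpa using h3

end Vale.Agent.Results.P194.FreeBySofic
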