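import Vale.Agent.Lib.P194.FreeSofic

namespace Vale.Agent.Results.P194.PolyResPBySofic

/-- Let `K` be a field of prime characteristic `p` and let `G` be a group with a finite chain of
normal subgroups `1 = N 0 ≤ N 1 ≤ ⋯ ≤ N r` such that every factor `N (i+1) / N i` is residually a
finite `p`-group (every `x ∈ N (i+1)` outside `N i` lies outside some subgroup `L` with
`N i ≤ L ≤ N (i+1)`, normal in `N (i+1)` and of `p`-power index in `N (i+1)`) and such that
`G / N r` is sofic in the sense of Elek and Szabó: for every finite `F ⊆ G / N r` and every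
`ε > 0` there are `m ≥ 1` and a map `σ : G / N r → Sym(m)` such that `σ (g h)` and `σ g ∘ σ h`
differ on at most `ε m` points for `g, h ∈ F`, and `σ g` has at most `ε m` fixed points for
every `g ∈ F`, `g ≠ 1`.  Then `K[G]` is directly finite and all matrix rings `M_n(K[G])` are
directly finite, i.e. `K[G]` is stably finite.

Free groups are residually finite `p`-groups for every `p` (proved in the imported files), so
the factors may in particular be free groups. -/
theorem result (p : ℕ) [Fact p.Prime] (K : Type*) [Field K] [CharP K p]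
    (G : Type*) [Group G] (r : ℕ) (N : ℕ → Subgroup G) (hnorm : ∀ i, (N i).Normal)
    (h0 : N 0 = ⊥)
    (hsofic : ∀ (F : Finset (G ⧸ N r)) (ε : ℝ), 0 < ε →
      ∃ (m : ℕ) (σ : G ⧸ N r → Equiv.Perm (Fin m)), 0 < m ∧
      (∀ g ∈ F, ∀ h ∈ F,
        ((Finset.univ.filter fun x => σ (g * h) x ≠ σ g (σ h x)).card : ℝ) ≤ ε * m) ∧
      (∀ g ∈ F, g ≠ 1 → ((Finset.univ.filter fun x => σ g x = x).card : ℝ) ≤ ε * m))
    (hres : ∀ i < r, N i ≤ N (i + 1) ∧ ∀ x ∈ N (i + 1), x ∉ N i →
      ∃ L : Subgroup G, N i ≤ L ∧ L ≤ N (i + 1) ∧ (L.subgroupOf (N (i + 1))).Normal ∧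
        (∃ k : ℕ, L.relIndex (N (i + 1)) = p ^ k) ∧ x ∉ L) :
    (∀ a b : MonoidAlgebra K G, a * b = 1 → b * a = 1) ∧
    ∀ n : ℕ, ∀ A B : Matrix (Fin n) (Fin n) (MonoidAlgebra K G), A * B = 1 → B * A = 1 := by
  have hSF : ∀ n : ℕ, ∀ A B : Matrix (Fin n) (Fin n) (MonoidAlgebra K G),
      A * B = 1 → B * A = 1 := fun n A B hAB =>
    Vale.Agent.Lib.P194.matrix_mul_eq_one_symm_of_series_sofic p r N hnorm h0 hsofic hres n A B hAB
  refine ⟨fun a b hab => ?_, hSF⟩
  have h1 : Matrix.diagonal (fun _ : Fin 1 => a) * Matrix.diagonal (fun _ : Fin 1 => b) = 1 := by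
    rw [Matrix.diagonal_mul_diagonal, hab, Matrix.diagonal_one]
  have h2 := hSF 1 _ _ h1
  rw [Matrix.diagonal_mul_diagonal] at h2
  have h3 := congrFun (congrFun h2 0) 0
  simpa using h3

end Vale.Agent.Results.P194.PolyResPBySofic
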