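import Vale.Agent.Lib.P194.ResFinite

namespace Vale.Agent.Results.P194.ResiduallyFiniteTop

/-- Let `K` be a commutative ring of prime characteristic `p` (for instance a field of
characteristic `p`) and let `G` be a group with a finite chain of normal subgroups
`1 = N 0 ≤ N 1 ≤ ⋯ ≤ N r` such that every factor `N (i+1) / N i` is residually a finite
`p`-group (every `x ∈ N (i+1)` outside `N i` lies outside some subgroup `L` with
`N i ≤ L ≤ N (i+1)`, normal in `N (i+1)` and of `p`-power index in `N (i+1)`) and such that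
`G / N r` is residually finite (every `x ∉ N r` lies outside some normal subgroup of finite
index of `G` containing `N r`).  Then `K[G]` is directly finite and all matrix rings
`M_n(K[G])` are directly finite, i.e. `K[G]` is stably finite.

The case `r = 1` says: if `N` is a normal subgroup of `G` that is residually a finite `p`-group
(e.g. a finite `p`-group, or an infinite cyclic group) and `G / N` is residually finite, then
`K[G]` is stably finite. -/
theorem result (p : ℕ) [Fact p.Prime] (K : Type*) [CommRing K] [CharP K p]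
    (G : Type*) [Group G] (r : ℕ) (N : ℕ → Subgroup G) (hnorm : ∀ i, (N i).Normal)
    (h0 : N 0 = ⊥)
    (hr : ∀ x : G, x ∉ N r → ∃ L : Subgroup G, L.Normal ∧ L.index ≠ 0 ∧ N r ≤ L ∧ x ∉ L)
    (hres : ∀ i < r, N i ≤ N (i + 1) ∧ ∀ x ∈ N (i + 1), x ∉ N i →
      ∃ L : Subgroup G, N i ≤ L ∧ L ≤ N (i + 1) ∧ (L.subgroupOf (N (i + 1))).Normal ∧
        (∃ k : ℕ, L.relIndex (N (i + 1)) = p ^ k) ∧ x ∉ L) :
    (∀ a b : MonoidAlgebra K G, a * b = 1 → b * a = 1) ∧
    ∀ n : ℕ, ∀ A B : Matrix (Fin n) (Fin n) (MonoidAlgebra K G), A * B = 1 → B * A = 1 := by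
  have hSF : ∀ n : ℕ, ∀ A B : Matrix (Fin n) (Fin n) (MonoidAlgebra K G),
      A * B = 1 → B * A = 1 := fun n A B hAB =>
    Vale.Agent.Lib.P194.matrix_mul_eq_one_symm_of_series_resF p r N hnorm h0 hr hres n A B hAB
  refine ⟨fun a b hab => ?_, hSF⟩
  have h1 : Matrix.diagonal (fun _ : Fin 1 => a) * Matrix.diagonal (fun _ : Fin 1 => b) = 1 := by
    rw [Matrix.diagonal_mul_diagonal, hab, Matrix.diagonal_one]
  have h2 := hSF 1 _ _ h1
  rw [Matrix.diagonal_mul_diagonal] at h2
  have h3 := congrFun (congrFun h2 0) 0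
  simpa using h3

end Vale.Agent.Results.P194.ResiduallyFiniteTop
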