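import Vale.Agent.Lib.P194.ResidualP

namespace Vale.Agent.Results.P194.ResiduallyPKernel

/-- Let `K` be a commutative ring of prime characteristic `p` (for instance a field of
characteristic `p`) and `φ : G →* Q` a group homomorphism whose kernel is residually a finite
`p`-group: every nontrivial element of the kernel lies outside some normal subgroup of the
kernel of `p`-power index.  If `K[Q]` is directly finite, so is `K[G]`; and for every `n`, if
the matrix ring `M_n(K[Q])` is directly finite, so is `M_n(K[G])`. -/
theorem result (p : ℕ) [Fact p.Prime] (K : Type*) [CommRing K] [CharP K p]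
    (G Q : Type*) [Group G] [Group Q] (φ : G →* Q)
    (hres : ∀ x : φ.ker, x ≠ 1 →
      ∃ M : Subgroup φ.ker, M.Normal ∧ (∃ k : ℕ, M.index = p ^ k) ∧ x ∉ M) :
    ((∀ x y : MonoidAlgebra K Q, x * y = 1 → y * x = 1) →
      ∀ a b : MonoidAlgebra K G, a * b = 1 → b * a = 1) ∧
    ∀ n : ℕ, (∀ A B : Matrix (Fin n) (Fin n) (MonoidAlgebra K Q), A * B = 1 → B * A = 1) →
      ∀ A B : Matrix (Fin n) (Fin n) (MonoidAlgebra K G), A * B = 1 → B * A = 1 :=
  Vale.Agent.Lib.P194.lift_of_residually_p_hom p φ hres

end Vale.Agent.Results.P194.ResiduallyPKernel
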